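import Vale.Agent.P011.D4X.H637.Tor
import Vale.Agent.P011N.D1.TorAbs
import Vale.Agent.P011N.D1.D4X.Defs
import Vale.Agent.P011N.D1.D4X.H369.AutI
import Vale.Agent.P011N.D1.D4X.H691.Na

/-!
Version for big subgroups of `P011.D4X.H637.Tor`.
-/

open NumberField Topology

namespace Vale.Agent.P011.D4X

open Vale.Agent.P011.Arith Vale.Agent.P011.MPQ Vale.Agent.P011.D4 Vale.Agent.P011.D4.Oct
  Vale.Agent.P011.E6

section arith

variable {k L E : Type} [Field k] [NumberField k] [Field L] [NumberField L] [Field E]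
  [Algebra k L] [Algebra k E] [Algebra L E]
  [IsScalarTower k L E] [NeZero (2 : E)] {ρ σ : E ≃ₐ[k] E} {ρL : L ≃ₐ[k] L} {α : E}
  {a b c : kˣ} {q : Lˣ} (H : Hy ρ σ ρL α a b c q)

include H

/-- F1b (637): the torus. -/
theorem tor_memB {x : SL1 (up L a) (q * up L b)}
    (hJ : ((x : (Qt (up L a) (q * up L b))ˣ) : Qt (up L a) (q * up L b)).imJ = 0)
    (hK : ((x : (Qt (up L a) (q * up L b))ˣ) : Qt (up L a) (q * up L b)).imK = 0)
    {g : OctL E a b c ≃ₗ[E] OctL E a b c}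
    (hg : ∀ y : OctL E a b c, g y = shortFun ρ (psiL α q ((x : (Qt (up L a) (q * up L b))ˣ) :
      Qt (up L a) (q * up L b))) y) : g ∈ RsB ρ σ α a b c q := by
  obtain ⟨u, b₁, hb₁, -, hram⟩ := H637.exists_u H.h3 H.ρ1 H.ρL3 a b c q
  have ht := H24.trip_u (a := a) (b := b) (c := c) hb₁
  have H₁ : Hy ρ σ ρL α a b₁ b q := H637.hy_trip H ht
  obtain ⟨s, hs⟩ := H637.exists_shortHom H
  obtain ⟨s₁, hs₁⟩ := H637.exists_shortHom H₁
  have hgs : g = (s x).1 := by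
    apply LinearEquiv.ext
    intro y
    rw [hg, hs]
  rw [hgs, mem_RsB]
  refine ⟨(s x).2, ?_⟩
  rw [mem_fresB]
  intro N hN
  refine H637.torus_absB hram (H637.aniso1 H) (H637.aniso1 H₁) s ((H637.tripHom ht).comp s₁) N hN
    ?_ x hJ hK
  intro t t' p r e1 e2 h
  have h0 : ∀ {b' c' : kˣ}, (ep α : OctL E a b' c') = ⟨⟨1 / 2, 1 / (2 * α), 0, 0⟩, 0⟩ := rfl
  have hT : ∀ x y : E, tripO E ht ⟨⟨x, y, 0, 0⟩, 0⟩ = ⟨⟨x, y, 0, 0⟩, 0⟩ := fun x y => by
    rw [tripO_apply]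
    exact H24.emb_torus _ _ x y
  have h1 : (s t).1 (ep α) = ((H637.tripHom ht).comp s₁ t').1 (ep α) := by
    rw [hs, e1, H637.psiL_torus, h0, H637.shortFun_torus]
    conv_rhs => rw [← hT]
    rw [MonoidHom.comp_apply, H637.tripHom_apply, hs₁, e2, H637.psiL_torus, H637.shortFun_torus, hT]
  have h2 : (((H637.tripHom ht).comp s₁ t')⁻¹ * s t).1 (ep α) = ep α := by
    rw [Subgroup.coe_mul, Subgroup.coe_inv, LinearEquiv.mul_apply, h1, ← LinearEquiv.mul_apply,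
      inv_mul_cancel]
    rfl
  obtain ⟨h3, h4⟩ := mem_RsB.1 (H369.autI_memB H (((H637.tripHom ht).comp s₁ t')⁻¹ * s t).2 h2)
  have h5 := mem_fresB.1 h4 _ hN
  have h6 := mul_mem h h5
  have h7 : (H637.tripHom ht).comp s₁ t' * (((H637.tripHom ht).comp s₁ t')⁻¹ * s t) = s t := by group
  rw [← h7]
  exact h6

end arith

end Vale.Agent.P011.D4X
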